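import Vale.Agent.P281.H603.Tor.Coord

/-!
# P281, theorem T-T (helper603): block TFAM
-/

open Set Filter Metric Vale.Agent.P281 Vale.Agent.P281.H713
open scoped Topology ContDiff Manifold ComplexConjugate

set_option linter.unusedSectionVars false

noncomputable section

namespace Vale.Agent.P281.H603.Tor

open Vale.Agent.P281.H64.TK Vale.Agent.P281.H603.K
open Vale.Agent.P281.H64 (Cm Mark IsProperFibration Qf)
open Vale.Agent.P272.K (Chart IsKahler)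
open Vale.Agent.P281.H864.Toc (isTor_iso IsoHol bas_card bas_minor)

variable {p d : ℕ} {Z Y : Type} [TopologicalSpace Z] [T2Space Z] [ChartedSpace (Cm (p + d)) Z]
  [IsManifold 𝓘(ℂ, Cm (p + d)) ω Z] [TopologicalSpace Y] [T2Space Y] [ChartedSpace (Cm p) Y]
  [IsManifold 𝓘(ℂ, Cm p) ω Y] {f : Z → Y}
  {w : Chart (p + d) Z → Cm (p + d) → Matrix (Fin (p + d)) (Fin (p + d)) ℂ} {n : ℕ}
  {B : Matrix (Fin n) (Fin n) ℝ} {J : (Fin d ⊕ Fin d → Fin n) → ℝ}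

/-- being a torus does not depend on the model -/
theorem isTor_at (I : Inputs) (hd : 0 < d) (hf : ContMDiff 𝓘(ℂ, Cm (p + d)) 𝓘(ℂ, Cm p) ω f)
    (hw : IsKahler w) {g : ℕ} (L : DLoc f w B J g) {t : Cm p} (ht : t ∈ L.𝓕.T)
    (h : IsTorAt (p + d) p d f (L.χ.symm t)) : (L.𝓕.at t ht).IsTor := by
  obtain ⟨E', Γ', _, _, _, _, _, _, 𝓕', q', χ', t', ht', hM', hy', hT⟩ := h
  obtain ⟨W', hPull', hKF'⟩ := I.w p d Z Y f w E' Γ' 𝓕' q' χ' hf hM' hw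
  obtain ⟨τ, ρ, h1, h2, h3, h4⟩ := I.k p d Z Y f w L.E L.Γ L.𝓕 L.q L.χ E' Γ' 𝓕' q' χ' L.W W' hd
    hf L.model hM' hw L.pull hPull' t ht t' ht' hy'.symm
  have hiso : IsoHol (L.𝓕.at t ht) (𝓕'.at t' ht') τ := h3
  exact isTor_iso (ρ := ρ) h1 hiso hT

theorem g_eq (hB : TBasStmt) (hd : 0 < d) {g : ℕ} (L : DLoc f w B J g) {t : Cm p} (ht : t ∈ L.T')
    (h : (L.𝓕.at t (L.hT' ht)).IsTor) : g = d := by
  obtain ⟨h, H, hm⟩ := h
  choose b hb using H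
  have hb1 := hB d L.E L.Γ (L.𝓕.at t (L.hT' ht)) h (fun γ a => b a γ) hd (fun a => hb a) hm
  exact bas_card (L.bas t ht) hb1

/-- the local data describe tori -/
structure IsT (L : DLoc f w B J d) : Prop where
  bij : ∀ t ∈ L.T', Function.Bijective (L.F t)
  minor : ∀ (t : Cm p) (ht : t ∈ L.T') (i : Fin L.𝓕.N), ∀ z ∈ ball (0 : Cm d) 3,
    (L.𝓕.at t (L.hT' ht)).minor (L.F t) i z ≠ 0

theorem isT (hU : TUniStmt) (hd : 0 < d) (L : DLoc f w B J d)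
    (h : ∀ (t : Cm p) (ht : t ∈ L.T'), (L.𝓕.at t (L.hT' ht)).IsTor) : IsT L := by
  have hm : ∀ (t : Cm p) (ht : t ∈ L.T') (i : Fin L.𝓕.N), ∀ z ∈ ball (0 : Cm d) 3,
      (L.𝓕.at t (L.hT' ht)).minor (L.F t) i z ≠ 0 := by
    intro t ht i z hz
    obtain ⟨h', H', hne⟩ := h t ht
    obtain ⟨a, ha⟩ := bas_minor (L.bas t ht) H'
    have h1 := hne i z hz
    rw [ha i z hz] at h1
    exact right_ne_zero_of_mul h1
  exact ⟨fun t ht => (hU d L.E L.Γ (L.𝓕.at t (L.hT' ht)) (L.F t) (L.c t) hd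
    (fun a => (L.bas t ht).add a) (hm t ht)).1, hm⟩

/-- the inverse of `F t` -/
def inv (L : DLoc f w B J d) (t : Cm p) (v : EuclideanSpace ℂ (Fin d)) : L.E :=
  Function.invFun (L.F t) (WithLp.ofLp v)

variable {L : DLoc f w B J d}

theorem F_inv (h : IsT L) {t : Cm p} (ht : t ∈ L.T') (v : EuclideanSpace ℂ (Fin d)) :
    WithLp.toLp 2 (L.F t (inv L t v)) = v := by
  have h1 : L.F t (inv L t v) = WithLp.ofLp v := Function.rightInverse_invFun (h.bij t ht).2 _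
  rw [h1]

theorem inv_F (h : IsT L) {t : Cm p} (ht : t ∈ L.T') (e : L.E) :
    inv L t (WithLp.toLp 2 (L.F t e)) = e :=
  Function.leftInverse_invFun (h.bij t ht).1 e

variable (L) in
/-- the uniformization -/
def u (y : Y) (v : EuclideanSpace ℂ (Fin d)) : Z := L.q (L.χ y) (inv L (L.χ y) v)

variable {D : (Fin n → ℝ) ≃L[ℝ] EuclideanSpace ℂ (Fin d)}

theorem cong_iff (hF2 : F2Stmt) (hd : 0 < d) (hn : n = 2 * d) (h : IsT L) {y : Y} (hy : y ∈ L.U)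
    (e e' : L.E) :
    L.q (L.χ y) e = L.q (L.χ y) e' ↔ ∃ m : Fin n → ℤ,
      (WithLp.toLp 2 (L.F (L.χ y) e') : EuclideanSpace ℂ (Fin d)) =
        WithLp.toLp 2 (L.F (L.χ y) e) + L.π D y fun i => (m i : ℝ) := by
  rw [L.model.eq _ (L.hT' hy.2)]
  have hb := L.bas _ hy.2
  have hπ := DLoc.π_spec (L := L) hF2 hd hn D hy
  constructor
  · rintro ⟨γ, rfl⟩
    exact hb.congr (M := L.M) hπ γ e
  · rintro ⟨m, hm⟩
    obtain ⟨γ, hγ⟩ := L.M.surj m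
    refine ⟨γ, (h.bij _ hy.2).1 ?_⟩
    have h1 := hb.per_eq (M := L.M) γ
    rw [← hπ] at h1
    simp only [hγ] at h1
    rw [← h1] at hm
    have h2 : L.F (L.χ y) e' = L.F (L.χ y) e + L.c (L.χ y) γ := by
      have := congrArg WithLp.ofLp hm
      exact this
    rw [h2]
    funext j
    exact (hb.add j).add γ e

theorem u_eq (h : IsT L) {y : Y} (hy : y ∈ L.U) (e : L.E) :
    u L y (WithLp.toLp 2 (L.F (L.χ y) e)) = L.q (L.χ y) e := by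
  rw [u, inv_F h hy.2]

theorem f_u {y : Y} (hy : y ∈ L.U) (v : EuclideanSpace ℂ (Fin d)) : f (u L y v) = y := by
  rw [u, L.model.fib _ (L.hT' hy.2), L.left_inv hy]

theorem unif (hF2 : F2Stmt) (hd : 0 < d) (hn : n = 2 * d) (h : IsT L) {y : Y} (hy : y ∈ L.U)
    (v v' : EuclideanSpace ℂ (Fin d)) :
    f (u L y v) = y ∧ (u L y v = u L y v' ↔ ∃ m : Fin n → ℤ,
      v' = v + L.π D y fun i => (m i : ℝ)) := by
  refine ⟨f_u hy v, ?_⟩
  rw [u, u, cong_iff (D := D) hF2 hd hn h hy, F_inv h hy.2, F_inv h hy.2]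

/-- the fibre coordinate -/
theorem coord (h : IsT L) (hf : ContMDiff 𝓘(ℂ, Cm (p + d)) 𝓘(ℂ, Cm p) ω f) {x : Z}
    (hx : f x ∈ L.U) : ∃ ζ : Z → EuclideanSpace ℂ (Fin d),
    ContMDiffAt 𝓘(ℂ, Cm (p + d)) 𝓘(ℂ, EuclideanSpace ℂ (Fin d)) ω ζ x ∧
    (∀ᶠ z in 𝓝 x, u L (f z) (ζ z) = z) ∧
    ∀ ξ : Cm (p + d), mfderiv 𝓘(ℂ, Cm (p + d)) 𝓘(ℂ, Cm p) f x ξ = 0 →
      mfderiv 𝓘(ℂ, Cm (p + d)) 𝓘(ℂ, EuclideanSpace ℂ (Fin d)) ζ x ξ = 0 → ξ = 0 := by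
  obtain ⟨i, z, ζ, hz, h1, h2, h3, h4⟩ := L.chart hx
  have hz3 : z ∈ ball (0 : Cm d) 3 := Sh.mem3 hz
  set G : Cm p × Cm d → EuclideanSpace ℂ (Fin d) :=
    fun r => WithLp.toLp 2 (L.F r.1 (L.𝓕.σ i r.1 r.2)) with hG
  have hGd : DifferentiableAt ℂ G (L.χ (f x), ζ x) := by
    have h6 : DifferentiableAt ℂ (fun r : Cm p × Cm d => L.F r.1 (L.𝓕.σ i r.1 r.2))
        (L.χ (f x), ζ x) := by
      rw [differentiableAt_pi]
      intro j
      rw [h3]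
      exact (L.holF i _ hx.2 z hz3 j).differentiableAt
    exact (PiLp.continuousLinearEquiv 2 ℂ (fun _ : Fin d => ℂ)).symm.differentiableAt.comp _ h6
  refine ⟨fun x' => G (L.χ (f x'), ζ x'), DLoc.lift_aux (i := i) hf hx hz h2 h3, ?_, ?_⟩
  · filter_upwards [h4, L.eventually_mem hf hx] with x' a b
    show u L (f x') (WithLp.toLp 2 (L.F (L.χ (f x')) (L.𝓕.σ i (L.χ (f x')) (ζ x')))) = x'
    rw [u_eq h b, a]
  · intro ξ hξ hξ'
    have h5 := coord_deriv L hf hx h2 hGd hξ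
    have h5' : fderiv ℂ G (L.χ (f x), ζ x)
        (0, mfderiv 𝓘(ℂ, Cm (p + d)) 𝓘(ℂ, Cm d) ζ x ξ) = 0 := h5.symm.trans hξ'
    refine coord_inj L hf hx hz h1 h2 h3 h4 hξ ?_
    set v : Cm d := mfderiv 𝓘(ℂ, Cm (p + d)) 𝓘(ℂ, Cm d) ζ x ξ with hv
    rw [h3] at h5' hGd
    have h6 : ∀ j, fderiv ℂ (fun u => L.F (L.χ (f x)) (L.𝓕.σ i (L.χ (f x)) u) j) z v = 0 := by
      intro j
      have h7 : HasFDerivAt (fun u : Cm d => ((L.χ (f x), u) : Cm p × Cm d))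
          (ContinuousLinearMap.inr ℂ (Cm p) (Cm d)) z := hasFDerivAt_prodMk_right _ _
      have h8 : HasFDerivAt (fun u : Cm d => G (L.χ (f x), u))
          ((fderiv ℂ G (L.χ (f x), z)).comp (ContinuousLinearMap.inr ℂ (Cm p) (Cm d))) z :=
        HasFDerivAt.comp (g := G) z hGd.hasFDerivAt h7
      have h9 : HasFDerivAt (fun u : Cm d => (G (L.χ (f x), u)) j)
          ((EuclideanSpace.proj j : EuclideanSpace ℂ (Fin d) →L[ℂ] ℂ).comp
            ((fderiv ℂ G (L.χ (f x), z)).comp (ContinuousLinearMap.inr ℂ (Cm p) (Cm d)))) z :=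
        (EuclideanSpace.proj j : EuclideanSpace ℂ (Fin d) →L[ℂ] ℂ).hasFDerivAt.comp z h8
      have h10 : (fun u => L.F (L.χ (f x)) (L.𝓕.σ i (L.χ (f x)) u) j) =
          fun u : Cm d => (G (L.χ (f x), u)) j := rfl
      rw [h10, h9.fderiv]
      show (fderiv ℂ G (L.χ (f x), z) (0, v)) j = 0
      rw [h5']
      rfl
    refine Matrix.eq_zero_of_mulVec_eq_zero (h.minor _ hx.2 i z hz3) ?_
    funext j
    show ∑ k, fderiv ℂ (fun u => L.F (L.χ (f x)) (L.𝓕.σ i (L.χ (f x)) u) j) z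
      (Pi.single k 1) * v k = 0
    rw [← h6 j]
    have h7 : v = ∑ k, v k • (Pi.single k (1 : ℂ) : Cm d) := by
      funext l
      simp [Finset.sum_apply, Pi.single_apply]
    conv_rhs => rw [h7]
    rw [map_sum]
    refine Finset.sum_congr rfl fun k _ => ?_
    rw [map_smul, smul_eq_mul, mul_comm]

/-- change of uniformization -/
theorem change (I : Inputs) (hd : 0 < d) (hn : n = 2 * d)
    (hf : ContMDiff 𝓘(ℂ, Cm (p + d)) 𝓘(ℂ, Cm p) ω f) (hw : IsKahler w) (h : IsT L)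
    {L' : DLoc f w B J d} (h' : IsT L') {D' : (Fin n → ℝ) ≃L[ℝ] EuclideanSpace ℂ (Fin d)} {y : Y}
    (hy : y ∈ L.U) (hy' : y ∈ L'.U) :
    ∃ (G : EuclideanSpace ℂ (Fin d) ≃L[ℂ] EuclideanSpace ℂ (Fin d)) (c : EuclideanSpace ℂ (Fin d)),
    (∀ x x', Qf B ((L'.π D' y).symm (G (L.π D y x))) ((L'.π D' y).symm (G (L.π D y x'))) =
      Qf B x x') ∧ ∀ v, u L' y (G v + c) = u L y v := by
  obtain ⟨G, b, hG, hα⟩ := DLoc.change I hd hn hf hw L L' D D' hy hy'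
  refine ⟨G, b, hG.2.2, fun v => ?_⟩
  have hfx : f (u L y v) = y := f_u hy v
  set x := u L y v with hx
  obtain ⟨m, hm⟩ := hα x hfx
  have hqx : L.q (L.χ (f x)) (inv L (L.χ y) v) = x := by rw [hfx]; rfl
  have hy1 : f x ∈ L.U := by rw [hfx]; exact hy
  obtain ⟨m₁, hm₁⟩ := DLoc.congr_aux (L := L) I.f2 hd hn D hy1 hqx
  obtain ⟨m₂, hm₂⟩ := hG.1 m₁
  rw [hfx] at hm₁
  have hx' : L'.q (L'.χ y) (L'.pt x) = x := by
    have := L'.q_pt (x := x) (by rw [hfx]; exact hy')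
    rwa [hfx] at this
  have h2 : L'.α x = WithLp.toLp 2 (L'.F (L'.χ y) (L'.pt x)) := by
    rw [DLoc.α, hfx]
  have h3 : (WithLp.toLp 2 (L.F (L.χ y) (inv L (L.χ y) v)) : EuclideanSpace ℂ (Fin d)) = v :=
    F_inv h hy.2 v
  have h4 : L.α x = v - L.π D y fun i => (m₁ i : ℝ) := by
    rw [← h3, hm₁, add_sub_cancel_right]
  have h5 : (fun i => ((m i - m₂ i : ℤ) : ℝ)) =
      (fun i => (m i : ℝ)) - fun i => (m₂ i : ℝ) := by
    funext i
    simp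
  have h1 : L'.α x = G v + b + L'.π D' y fun i => ((m i - m₂ i : ℤ) : ℝ) := by
    rw [hm, h4, map_sub, hm₂, h5, map_sub]
    abel
  have h8 := ((unif (D := D') I.f2 hd hn h' hy' (G v + b) (L'.α x)).2).2
    ⟨fun i => m i - m₂ i, h1⟩
  rw [h8, h2, u_eq h' hy', hx']

/-- **Block TFAM**. -/
theorem tfam (I : Inputs) (hU : TUniStmt) (hB : TBasStmt) : TFamStmt := by
  intro p d Z Y _ _ _ _ _ _ _ _ f S w hd hf hP hconn hw hT hne
  obtain ⟨y₁, hy₁⟩ := hne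
  obtain ⟨n, g, hn, B, J, hJ, hL⟩ := dglob I hd hf hw hP hconn hy₁
  have hsub : ∀ (L : DLoc f w B J g), (∀ t ∈ L.T', L.χ.symm t ∉ S) → ∀ y ∈ L.U, y ∉ S := by
    intro L h y hy
    have := h _ hy.2
    rwa [L.left_inv hy] at this
  have hIT : ∀ (L : DLoc f w B J g), (∀ t ∈ L.T', L.χ.symm t ∉ S) → ∀ (t : Cm p) (ht : t ∈ L.T'),
      (L.𝓕.at t (L.hT' ht)).IsTor := fun L h t ht =>
    isTor_at I hd hf hw L (L.hT' ht) (hT _ (h t ht))
  obtain rfl : g = d := by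
    obtain ⟨L, h1, h2, h3⟩ := hL y₁ hy₁
    exact g_eq hB hd L h2 (hIT L h3 _ h2)
  choose L h1 h2 h3 using fun a : {y : Y // y ∉ S} => hL a.1 a.2
  have hLT : ∀ a, IsT (L a) := fun a => isT hU hd (L a) (hIT (L a) (h3 a))
  obtain ⟨-, D, -⟩ := (L ⟨y₁, hy₁⟩).F2_at I.f2 hd hn (h2 ⟨y₁, hy₁⟩)
  refine ⟨n, Qf B, {y : Y // y ∉ S}, fun a => (L a).U, fun a => (L a).π D, fun a => u (L a), ?_⟩
  exact
    { cover := fun y => ⟨fun hy => ⟨⟨y, hy⟩, h1 ⟨y, hy⟩, h2 ⟨y, hy⟩⟩,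
        fun ⟨a, ha⟩ => hsub (L a) (h3 a) y ha⟩
      isOpen := fun a => (L a).isOpen_U
      hol := fun a x y hy => DLoc.hol_π (L := L a) I.f2 hd hn D x hy
      polarized := fun a y hy => DLoc.polarized (L := L a) I.f2 hd hn D hy
      unif := fun a y hy v v' => unif (D := D) I.f2 hd hn (hLT a) hy v v'
      coord := fun a x hx => coord (hLT a) hf hx
      change := fun a b y hy => change I hd hn hf hw (hLT a) (hLT b) hy.1 hy.2 }

end Vale.Agent.P281.H603.Tor
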